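import Vale.Agent.Lib.P248.Corner

open MeasureTheory Set

namespace Vale.Agent.Lib.P248

variable {n : ℕ} {K : Set (Fin (n+1) → ℝ)}

/-- Polar bodies are closed. -/
theorem isClosed_polarAt {m : ℕ} (K : Set (Fin m → ℝ)) (z : Fin m → ℝ) :
    IsClosed (polarAt K z) := by
  have h : polarAt K z = ⋂ x ∈ K, {y : Fin m → ℝ | ∑ i, y i * (x i - z i) ≤ 1} := by
    ext y
    simp only [polarAt, Set.mem_ofPred_eq, Set.mem_iInter]
  rw [h]
  refine isClosed_biInter (fun x _ => ?_)
  exact isClosed_le
    (continuous_finsetSum _ (fun i _ => (continuous_apply i).mul continuous_const))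
    continuous_const

/-- The polar with respect to an interior point has finite volume. -/
theorem volume_polarAt_ne_top {m : ℕ} {K : Set (Fin m → ℝ)} {z : Fin m → ℝ}
    (hz : z ∈ interior K) : volume (polarAt K z) ≠ ⊤ := by
  obtain ⟨ε, hε, hball⟩ :=
    Metric.nhds_basis_closedBall.mem_iff.mp (mem_interior_iff_mem_nhds.mp hz)
  have hsub : polarAt K z ⊆ Set.Icc (fun _ => -(1 / ε)) (fun _ => 1 / ε) := by
    intro y hy
    have hbound : ∀ i, |y i| ≤ 1 / ε := by
      intro i
      have key : ∀ δ : ℝ, |δ| ≤ ε → y i * δ ≤ 1 := by
        intro δ hδ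
        have hmem : Function.update z i (z i + δ) ∈ K := by
          apply hball
          rw [Metric.mem_closedBall, dist_pi_le_iff hε.le]
          intro j
          by_cases hj : j = i
          · subst hj
            rw [Function.update_self, Real.dist_eq]
            have e : z j + δ - z j = δ := by ring
            rw [e]
            exact hδ
          · rw [Function.update_of_ne hj, dist_self]
            exact hε.le
        have h1 := hy _ hmem
        rw [Finset.sum_eq_single i] at h1
        · rw [Function.update_self] at h1
          have e : z i + δ - z i = δ := by ring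
          rw [e] at h1
          exact h1
        · intro j _ hj
          rw [Function.update_of_ne hj, sub_self, mul_zero]
        · intro h
          exact absurd (Finset.mem_univ i) h
      have h1 := key ε (by rw [abs_of_pos hε])
      have h2 := key (-ε) (by rw [abs_neg, abs_of_pos hε])
      rw [le_div_iff₀ hε]
      rcases abs_cases (y i) with ⟨h, _⟩ | ⟨h, _⟩ <;> rw [h] <;> linarith
    exact ⟨fun i => (abs_le.mp (hbound i)).1, fun i => (abs_le.mp (hbound i)).2⟩
  exact ne_top_of_le_ne_top (isCompact_Icc.measure_lt_top).ne (measure_mono hsub)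

/-- The polar with respect to an axis point inherits the symmetries. -/
theorem polarAt_flip
    (hflip : ∀ i : Fin (n+1), i ≠ 0 → ∀ x ∈ K, Function.update x i (-(x i)) ∈ K)
    {z : Fin (n+1) → ℝ} (hz0 : ∀ i, i ≠ 0 → z i = 0) :
    ∀ i : Fin (n+1), i ≠ 0 → ∀ y ∈ polarAt K z, Function.update y i (-(y i)) ∈ polarAt K z := by
  intro i hi y hy x hx
  have hx' := hy _ (hflip i hi x hx)
  have e : ∑ j, Function.update y i (-(y i)) j * (x j - z j)
      = ∑ j, y j * (Function.update x i (-(x i)) j - z j) := by
    refine Finset.sum_congr rfl (fun j _ => ?_)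
    by_cases hj : j = i
    · subst hj
      rw [Function.update_self, Function.update_self, hz0 j hi]
      ring
    · rw [Function.update_of_ne hj, Function.update_of_ne hj]
  rw [e]
  exact hx'

/-- Invariance under the sign changes of single coordinates gives invariance under the sign
changes of finitely many coordinates. -/
theorem pol_flip_finset
    (hflip : ∀ i : Fin (n+1), i ≠ 0 → ∀ x ∈ K, Function.update x i (-(x i)) ∈ K)
    (T : Finset (Fin (n+1))) (hT : ∀ j ∈ T, j ≠ 0) (x : Fin (n+1) → ℝ) (hx : x ∈ K) :
    (fun j => if j ∈ T then -(x j) else x j) ∈ K := by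
  induction T using Finset.induction_on with
  | empty =>
    have e : (fun j => if j ∈ (∅ : Finset (Fin (n+1))) then -(x j) else x j) = x := by
      funext j
      simp
    rw [e]
    exact hx
  | insert a T ha ih =>
    have h1 := ih (fun j hj => hT j (Finset.mem_insert_of_mem hj))
    have h2 := hflip a (hT a (Finset.mem_insert_self a T)) _ h1
    have e : Function.update (fun j => if j ∈ T then -(x j) else x j) a
        (-((fun j => if j ∈ T then -(x j) else x j) a))
        = (fun j => if j ∈ insert a T then -(x j) else x j) := by
      funext j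
      by_cases hj : j = a
      · subst hj
        rw [Function.update_self]
        simp [ha]
      · rw [Function.update_of_ne hj]
        simp [Finset.mem_insert, hj]
    rw [e] at h2
    exact h2

/-- The positive part of the polar is the dual half corner of the positive part. -/
theorem polarAt_pos_eq
    (hflip : ∀ i : Fin (n+1), i ≠ 0 → ∀ x ∈ K, Function.update x i (-(x i)) ∈ K)
    {z : Fin (n+1) → ℝ} (hz0 : ∀ i, i ≠ 0 → z i = 0) :
    {y | y ∈ polarAt K z ∧ ∀ i, i ≠ 0 → 0 ≤ y i} = dualCorner (cornerOf K z) := by
  ext y
  simp only [Set.mem_ofPred_eq, dualCorner, cornerOf, polarAt]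
  constructor
  · rintro ⟨hy, hpos⟩
    refine ⟨hpos, fun x hx => ?_⟩
    have h1 := hy (x + z) hx.1
    have e : ∑ i, y i * ((x + z) i - z i) = ∑ i, x i * y i := by
      refine Finset.sum_congr rfl (fun i _ => ?_)
      rw [Pi.add_apply]
      ring
    rw [e] at h1
    exact h1
  · rintro ⟨hpos, hy⟩
    refine ⟨fun x hx => ?_, hpos⟩
    obtain ⟨T, hT⟩ : ∃ T : Finset (Fin (n+1)),
        T = Finset.univ.filter (fun j : Fin (n+1) => j ≠ 0 ∧ x j < 0) := ⟨_, rfl⟩
    have hmem : ∀ j, j ∈ T ↔ (j ≠ 0 ∧ x j < 0) := by
      intro j
      rw [hT, Finset.mem_filter]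
      simp
    have habs : (fun j => if j ∈ T then -(x j) else x j) ∈ K :=
      pol_flip_finset hflip T (fun j hj => ((hmem j).mp hj).1) x hx
    have hcorner : (fun j => (if j ∈ T then -(x j) else x j) - z j) + z ∈ K ∧
        ∀ i, i ≠ 0 → 0 ≤ (fun j => (if j ∈ T then -(x j) else x j) - z j) i := by
      constructor
      · have e : (fun j => (if j ∈ T then -(x j) else x j) - z j) + z
            = (fun j => if j ∈ T then -(x j) else x j) := by
          funext j
          simp
        rw [e]
        exact habs
      · intro i hi
        show 0 ≤ (if i ∈ T then -(x i) else x i) - z i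
        rw [hz0 i hi, sub_zero]
        by_cases h : i ∈ T
        · rw [if_pos h]
          have h3 := ((hmem i).mp h).2
          linarith
        · rw [if_neg h]
          by_contra hcon
          push Not at hcon
          exact h ((hmem i).mpr ⟨hi, hcon⟩)
    have h1 := hy _ hcorner
    calc ∑ i, y i * (x i - z i)
        ≤ ∑ i, (fun j => (if j ∈ T then -(x j) else x j) - z j) i * y i := by
          refine Finset.sum_le_sum (fun i _ => ?_)
          show y i * (x i - z i) ≤ ((if i ∈ T then -(x i) else x i) - z i) * y i
          by_cases hi : i = 0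
          · have h0 : i ∉ T := fun h => ((hmem i).mp h).1 hi
            rw [if_neg h0]
            exact le_of_eq (mul_comm _ _)
          · have hyi := hpos i hi
            rw [hz0 i hi, sub_zero, sub_zero]
            by_cases h : i ∈ T
            · rw [if_pos h]
              have h3 := ((hmem i).mp h).2
              nlinarith [mul_nonneg hyi (neg_nonneg.mpr h3.le)]
            · rw [if_neg h]
              exact le_of_eq (mul_comm _ _)
      _ ≤ 1 := h1

end Vale.Agent.Lib.P248
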