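import Vale.Agent.Lib.P248.Step
import Vale.Agent.Lib.P248.Orthant
import Vale.Agent.Lib.P248.Polar
import Vale.Agent.Lib.P248.PolarCorner

open MeasureTheory Set

namespace Vale.Agent.Lib.P248

/-- The volume product with respect to a point of the axis. -/
theorem axis_bound {n : ℕ} (K : Set (Fin (n+1) → ℝ)) (hK : IsCompact K) (hc : Convex ℝ K)
    (hflip : ∀ i : Fin (n+1), i ≠ 0 → ∀ x ∈ K, Function.update x i (-(x i)) ∈ K)
    (z : Fin (n+1) → ℝ) (hz0 : ∀ i, i ≠ 0 → z i = 0) (hz : z ∈ interior K) :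
    (4:ℝ) ^ (n+1) / (((n:ℝ) + 1) * (n+1).factorial) ≤ vol K * vol (polarAt K z) := by
  have hC : HalfCorner (cornerOf K z) := halfCorner_cornerOf hK hc hflip hz0 hz
  have h1 := halfCorner_product (cornerOf K z) hC
  have h2 := vol_cornerOf_le hK hflip hz0
  have h3 := orthant_vol_le (M := polarAt K z) (isClosed_polarAt K z).measurableSet
    (volume_polarAt_ne_top hz) (polarAt_flip hflip hz0)
  rw [polarAt_pos_eq hflip hz0] at h3
  have hv1 : 0 ≤ vol (cornerOf K z) := ENNReal.toReal_nonneg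
  have hv2 : 0 ≤ vol (dualCorner (cornerOf K z)) := ENNReal.toReal_nonneg
  have hp : (0:ℝ) < 2 ^ n := by positivity
  have e : (4:ℝ) ^ (n+1) / (((n:ℝ) + 1) * (n+1).factorial) =
      (2:ℝ) ^ n * (2:ℝ) ^ n * (4 / (((n:ℝ) + 1) * (n+1).factorial)) := by
    have h4 : (4:ℝ) ^ n = (2:ℝ) ^ n * (2:ℝ) ^ n := by
      rw [← mul_pow]
      norm_num
    rw [pow_succ, h4]
    ring
  rw [e]
  calc (2:ℝ) ^ n * (2:ℝ) ^ n * (4 / (((n:ℝ) + 1) * (n+1).factorial))
      ≤ (2:ℝ) ^ n * (2:ℝ) ^ n * (vol (cornerOf K z) * vol (dualCorner (cornerOf K z))) :=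
        mul_le_mul_of_nonneg_left h1 (mul_nonneg hp.le hp.le)
    _ = ((2:ℝ) ^ n * vol (cornerOf K z)) * ((2:ℝ) ^ n * vol (dualCorner (cornerOf K z))) := by
        ring
    _ ≤ vol K * vol (polarAt K z) :=
        mul_le_mul h2 h3 (mul_nonneg hp.le hv2) (le_trans (mul_nonneg hp.le hv1) h2)

end Vale.Agent.Lib.P248
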