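import Vale.Agent.Lib.P248.Corner

open MeasureTheory Set

namespace Vale.Agent.Lib.P248

/-- A point of `Fin 1 → ℝ` is the constant function of its coordinate `0`. -/
private theorem base_const (x : Fin 1 → ℝ) : x = fun _ => x 0 := by
  funext i
  rw [Subsingleton.elim i 0]

/-- Dimension one: a half corner is a segment `[-A, B]` and its dual is `[-1/A, 1/B]`. -/
theorem halfCorner_base (C : Set (Fin 1 → ℝ)) (hC : HalfCorner C) :
    4 ≤ vol C * vol (dualCorner C) := by
  obtain ⟨r, hr, hbox⟩ := hC.box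
  obtain ⟨R, hR⟩ := hC.bdd
  -- the slice of `C` along the only coordinate
  obtain ⟨S, hS⟩ : ∃ S : Set ℝ, S = {t | (fun _ : Fin 1 => t) ∈ C} := ⟨_, rfl⟩
  have hmemS : ∀ t : ℝ, t ∈ S ↔ (fun _ : Fin 1 => t) ∈ C := by
    intro t
    rw [hS]
    rfl
  have hcont : Continuous fun t : ℝ => (fun _ : Fin 1 => t) := by fun_prop
  have hSclosed : IsClosed S := by
    rw [hS]
    exact hC.closed.preimage hcont
  have hSbdd : Bornology.IsBounded S := by
    refine (Metric.isBounded_Icc (-R) R).subset ?_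
    intro t ht
    have h1 := hR _ ((hmemS t).mp ht) 0
    exact abs_le.mp h1
  have hScompact : IsCompact S := Metric.isCompact_of_isClosed_isBounded hSclosed hSbdd
  have hrS : r ∈ S := by
    rw [hmemS]
    refine hbox _ (fun i => ?_) (fun i hi => absurd (Fin.eq_zero i) hi)
    rw [abs_of_pos hr]
  have hnrS : -r ∈ S := by
    rw [hmemS]
    refine hbox _ (fun i => ?_) (fun i hi => absurd (Fin.eq_zero i) hi)
    rw [abs_neg, abs_of_pos hr]
  obtain ⟨a, haS, haL⟩ := hScompact.exists_isLeast ⟨r, hrS⟩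
  obtain ⟨b, hbS, hbG⟩ := hScompact.exists_isGreatest ⟨r, hrS⟩
  have ha0 : a < 0 := lt_of_le_of_lt (haL hnrS) (by linarith)
  have hb0 : 0 < b := lt_of_lt_of_le hr (hbG hrS)
  have hlin : IsLinearMap ℝ (fun t : ℝ => (fun _ : Fin 1 => t)) := by
    constructor
    · intro x y
      rfl
    · intro c x
      rfl
  have hSconv : Convex ℝ S := by
    rw [hS]
    exact hC.convex.is_linear_preimage hlin
  have hSeq : S = Icc a b := by
    apply Subset.antisymm
    · intro t ht
      exact ⟨haL ht, hbG ht⟩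
    · exact hSconv.ordConnected.out haS hbS
  have hCmem : ∀ x : Fin 1 → ℝ, x ∈ C ↔ x 0 ∈ Icc a b := by
    intro x
    rw [← hSeq, hmemS, ← base_const x]
  have hpres := volume_preserving_funUnique (Fin 1) ℝ
  have hCeq : C = (MeasurableEquiv.funUnique (Fin 1) ℝ) ⁻¹' Icc a b := by
    ext x
    rw [hCmem x]
    rfl
  have hvolC : vol C = b - a := by
    have hv : volume ((MeasurableEquiv.funUnique (Fin 1) ℝ) ⁻¹' Icc a b) = volume (Icc a b) :=
      hpres.measure_preimage measurableSet_Icc.nullMeasurableSet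
    unfold vol
    rw [hCeq, hv, Real.volume_Icc, ENNReal.toReal_ofReal (by linarith)]
  have haa : a * a⁻¹ = 1 := mul_inv_cancel₀ (ne_of_lt ha0)
  have hbb : b * b⁻¹ = 1 := mul_inv_cancel₀ (ne_of_gt hb0)
  have hDeq : dualCorner C = (MeasurableEquiv.funUnique (Fin 1) ℝ) ⁻¹' Icc a⁻¹ b⁻¹ := by
    ext y
    have hy : y ∈ (MeasurableEquiv.funUnique (Fin 1) ℝ) ⁻¹' Icc a⁻¹ b⁻¹ ↔
        y 0 ∈ Icc a⁻¹ b⁻¹ := Iff.rfl
    rw [hy]
    constructor
    · rintro ⟨_, h⟩
      have h1 := h (fun _ => a) ((hmemS a).mp haS)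
      have h2 := h (fun _ => b) ((hmemS b).mp hbS)
      rw [Fin.sum_univ_one] at h1 h2
      constructor
      · by_contra hlt
        push Not at hlt
        nlinarith
      · by_contra hlt
        push Not at hlt
        nlinarith
    · rintro ⟨h1, h2⟩
      refine ⟨fun i hi => absurd (Fin.eq_zero i) hi, fun x hx => ?_⟩
      rw [Fin.sum_univ_one]
      obtain ⟨hxa, hxb⟩ := (hCmem x).mp hx
      rcases le_total 0 (y 0) with hy0 | hy0
      · nlinarith
      · nlinarith
  have hinv : a⁻¹ < 0 := inv_lt_zero.mpr ha0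
  have hinvb : 0 < b⁻¹ := inv_pos.mpr hb0
  have hvolD : vol (dualCorner C) = b⁻¹ - a⁻¹ := by
    have hv : volume ((MeasurableEquiv.funUnique (Fin 1) ℝ) ⁻¹' Icc a⁻¹ b⁻¹) =
        volume (Icc a⁻¹ b⁻¹) :=
      hpres.measure_preimage measurableSet_Icc.nullMeasurableSet
    unfold vol
    rw [hDeq, hv, Real.volume_Icc, ENNReal.toReal_ofReal (by linarith)]
  rw [hvolC, hvolD]
  have hane : a ≠ 0 := ne_of_lt ha0
  have hbne : b ≠ 0 := ne_of_gt hb0
  have h3 : b⁻¹ - a⁻¹ = (b - a) / (-a * b) := by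
    field_simp
    ring
  rw [h3, ← mul_div_assoc, le_div_iff₀ (by nlinarith)]
  nlinarith [sq_nonneg (a + b)]

end Vale.Agent.Lib.P248
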