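import Vale.Agent.Lib.P248.ConeSlice

open MeasureTheory Set

namespace Vale.Agent.Lib.P248

variable {n : ℕ} {C : Set (Fin (n+2) → ℝ)}

private theorem coneRegion_subset (p : Fin (n+2) → ℝ) (i : Fin (n+2)) :
    coneRegion C p i ⊆ C := fun _ hx => hx.1

private theorem coneRegion_measurable (hC : HalfCorner C) (p : Fin (n+2) → ℝ)
    (i : Fin (n+2)) : MeasurableSet (coneRegion C p i) := by
  have h1 : MeasurableSet C := hC.closed.measurableSet
  have h2 : MeasurableSet {x : Fin (n+2) → ℝ | 0 < x i} :=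
    measurableSet_lt measurable_const (measurable_pi_apply i)
  have h3 : MeasurableSet {x : Fin (n+2) → ℝ | x i < p i} :=
    measurableSet_lt (measurable_pi_apply i) measurable_const
  have h4 : ∀ j : Fin (n+2),
      MeasurableSet {x : Fin (n+2) → ℝ | j ≠ 0 → j ≠ i → x i * p j < x j * p i} := by
    intro j
    by_cases hj : j ≠ 0 ∧ j ≠ i
    · have hset : {x : Fin (n+2) → ℝ | j ≠ 0 → j ≠ i → x i * p j < x j * p i}
          = {x : Fin (n+2) → ℝ | x i * p j < x j * p i} := by
        ext x
        simp only [Set.mem_ofPred_eq]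
        exact ⟨fun h => h hj.1 hj.2, fun h _ _ => h⟩
      rw [hset]
      exact measurableSet_lt ((measurable_pi_apply i).mul_const _)
        ((measurable_pi_apply j).mul_const _)
    · have hset : {x : Fin (n+2) → ℝ | j ≠ 0 → j ≠ i → x i * p j < x j * p i}
          = Set.univ := by
        ext x
        simp only [Set.mem_ofPred_eq, Set.mem_univ, iff_true]
        intro a b
        exact absurd ⟨a, b⟩ hj
      rw [hset]
      exact MeasurableSet.univ
  have hset : coneRegion C p i = C ∩ ({x : Fin (n+2) → ℝ | 0 < x i} ∩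
      ({x : Fin (n+2) → ℝ | x i < p i} ∩
        ⋂ j : Fin (n+2), {x : Fin (n+2) → ℝ | j ≠ 0 → j ≠ i → x i * p j < x j * p i})) := by
    ext x
    simp only [coneRegion, Set.mem_ofPred_eq, Set.mem_inter_iff, Set.mem_iInter]
  rw [hset]
  exact h1.inter (h2.inter (h3.inter (MeasurableSet.iInter h4)))

private theorem coneRegion_disjoint (p : Fin (n+2) → ℝ) {i j : Fin (n+2)} (hi : i ≠ 0)
    (hj : j ≠ 0) (hij : i ≠ j) : Disjoint (coneRegion C p i) (coneRegion C p j) := by
  rw [Set.disjoint_left]
  intro x hxi hxj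
  have h1 := hxi.2.2.2 j hj (Ne.symm hij)
  have h2 := hxj.2.2.2 i hi hij
  exact lt_asymm h1 h2

/-- **Cone inequality.** For every point `p` of a half corner,
`∑_{i ≠ 0} p i |C ∩ {x i = 0}| ≤ (n+2) |C|`. -/
theorem cone_ineq (hC : HalfCorner C) {p : Fin (n+2) → ℝ} (hp : p ∈ C) :
    ∑ i : Fin (n+2), (if i = 0 then 0 else p i * vol (facet C i)) ≤ ((n:ℝ) + 2) * vol C := by
  have hn2 : (0:ℝ) ≤ (n:ℝ) + 2 := by positivity
  have hfin : volume C ≠ ⊤ := halfCorner_volume_ne_top hC
  have hfin' : ∀ i : Fin (n+2), volume (coneRegion C p i) ≠ ⊤ := fun i =>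
    ne_top_of_le_ne_top hfin (measure_mono (coneRegion_subset p i))
  have hstep : ∀ i : Fin (n+2), (if i = 0 then 0 else p i * vol (facet C i))
      ≤ ((n:ℝ) + 2) * (if i = 0 then 0 else vol (coneRegion C p i)) := by
    intro i
    by_cases hi : i = 0
    · simp [hi]
    · rw [if_neg hi, if_neg hi]
      have hpi : 0 ≤ p i := hC.nonneg p hp i hi
      rcases hpi.lt_or_eq with hpos | hzero
      · exact cone_slice hC hp i hi hpos
      · rw [← hzero, zero_mul]
        exact mul_nonneg hn2 ENNReal.toReal_nonneg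
  have hsum : ∑ i : Fin (n+2), (if i = 0 then 0 else vol (coneRegion C p i)) ≤ vol C := by
    rw [Finset.sum_ite, Finset.sum_const_zero, zero_add]
    have hdisj : ((Finset.univ.filter (fun i : Fin (n+2) => ¬ i = 0) : Finset (Fin (n+2))) :
        Set (Fin (n+2))).PairwiseDisjoint (fun i => coneRegion C p i) := by
      intro i hi j hj hij
      simp only [Finset.coe_filter, Finset.mem_univ, true_and, Set.mem_ofPred_eq] at hi hj
      exact coneRegion_disjoint p hi hj hij
    have hU : volume (⋃ i ∈ (Finset.univ.filter (fun i : Fin (n+2) => ¬ i = 0)),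
        coneRegion C p i) = ∑ i ∈ Finset.univ.filter (fun i : Fin (n+2) => ¬ i = 0),
          volume (coneRegion C p i) :=
      measure_biUnion_finset hdisj (fun i _ => coneRegion_measurable hC p i)
    have hsub : (⋃ i ∈ (Finset.univ.filter (fun i : Fin (n+2) => ¬ i = 0)),
        coneRegion C p i) ⊆ C := Set.iUnion₂_subset (fun i _ => coneRegion_subset p i)
    unfold vol
    rw [← ENNReal.toReal_sum (fun i _ => hfin' i), ← hU]
    exact ENNReal.toReal_mono hfin (measure_mono hsub)
  calc ∑ i : Fin (n+2), (if i = 0 then 0 else p i * vol (facet C i))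
      ≤ ∑ i : Fin (n+2), ((n:ℝ) + 2) * (if i = 0 then 0 else vol (coneRegion C p i)) :=
        Finset.sum_le_sum (fun i _ => hstep i)
    _ = ((n:ℝ) + 2) * ∑ i : Fin (n+2), (if i = 0 then 0 else vol (coneRegion C p i)) := by
        rw [Finset.mul_sum]
    _ ≤ ((n:ℝ) + 2) * vol C := mul_le_mul_of_nonneg_left hsum hn2

end Vale.Agent.Lib.P248
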