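import Vale.Agent.Lib.P248.Corner

open MeasureTheory Set

namespace Vale.Agent.Lib.P248

variable {n : ℕ} {C : Set (Fin (n+2) → ℝ)}

/-- A coordinate hyperplane of `ℝ^(n+1)` is a null set. -/
private theorem conePos_hyperplane_null (k : Fin (n+1)) :
    volume {g : Fin (n+1) → ℝ | g k = 0} = 0 := by
  rw [volume_pi]
  exact Measure.pi_hyperplane (μ := fun _ : Fin (n+1) => (volume : Measure ℝ)) k 0

/-- The part of a facet with positive symmetric coordinates has the same volume. -/
theorem volume_facet_pos (hC : HalfCorner C) (i : Fin (n+2)) (hi : i ≠ 0) :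
    volume {g : Fin (n+1) → ℝ | g ∈ facet C i ∧ ∀ k, k ≠ 0 → 0 < g k} = volume (facet C i) := by
  apply le_antisymm
  · exact measure_mono (fun g hg => hg.1)
  · have hsub : facet C i ⊆
        {g : Fin (n+1) → ℝ | g ∈ facet C i ∧ ∀ k, k ≠ 0 → 0 < g k} ∪
          ⋃ k : Fin (n+1), {g : Fin (n+1) → ℝ | g k = 0} := by
      intro g hg
      by_cases h : ∀ k, k ≠ 0 → 0 < g k
      · exact Or.inl ⟨hg, h⟩
      · right
        push Not at h
        obtain ⟨k, hk0, hk⟩ := h
        have hnn : 0 ≤ g k := by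
          have h1 := hC.nonneg _ hg (i.succAbove k) (Fin.succAbove_ne_zero hi hk0)
          rwa [Fin.insertNth_apply_succAbove] at h1
        exact Set.mem_iUnion.mpr ⟨k, le_antisymm hk hnn⟩
    have hnull : volume (⋃ k : Fin (n+1), {g : Fin (n+1) → ℝ | g k = 0}) = 0 :=
      measure_iUnion_null (fun k => conePos_hyperplane_null k)
    calc volume (facet C i)
        ≤ volume ({g : Fin (n+1) → ℝ | g ∈ facet C i ∧ ∀ k, k ≠ 0 → 0 < g k} ∪
            ⋃ k : Fin (n+1), {g : Fin (n+1) → ℝ | g k = 0}) := measure_mono hsub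
      _ ≤ volume {g : Fin (n+1) → ℝ | g ∈ facet C i ∧ ∀ k, k ≠ 0 → 0 < g k} +
            volume (⋃ k : Fin (n+1), {g : Fin (n+1) → ℝ | g k = 0}) := measure_union_le _ _
      _ = volume {g : Fin (n+1) → ℝ | g ∈ facet C i ∧ ∀ k, k ≠ 0 → 0 < g k} := by
          rw [hnull, add_zero]

end Vale.Agent.Lib.P248
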