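import Vale.Agent.Lib.P248.Corner

open MeasureTheory Set

namespace Vale.Agent.Lib.P248

variable {n : ℕ} {C : Set (Fin (n+1) → ℝ)}

theorem halfCorner_measurable (hC : HalfCorner C) : MeasurableSet C :=
  hC.closed.measurableSet

/-- A half corner has finite volume. -/
theorem halfCorner_volume_ne_top (hC : HalfCorner C) : volume C ≠ ⊤ := by
  obtain ⟨R, hR⟩ := hC.bdd
  have hsub : C ⊆ Set.Icc (fun _ => -R : Fin (n+1) → ℝ) (fun _ => R) := by
    intro x hx
    refine ⟨fun i => ?_, fun i => ?_⟩
    · exact (abs_le.mp (hR x hx i)).1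
    · exact (abs_le.mp (hR x hx i)).2
  exact ((measure_mono hsub).trans_lt isCompact_Icc.measure_lt_top).ne

/-- A half corner has positive volume. -/
theorem halfCorner_vol_pos (hC : HalfCorner C) : 0 < vol C := by
  obtain ⟨r, hr, hbox⟩ := hC.box
  have hUo : IsOpen (Set.pi Set.univ
      (fun i : Fin (n+1) => if i = 0 then Set.Ioo (-r) r else Set.Ioo 0 r)) := by
    apply isOpen_set_pi Set.finite_univ
    intro i _
    by_cases h : i = 0
    · rw [if_pos h]; exact isOpen_Ioo
    · rw [if_neg h]; exact isOpen_Ioo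
  have hUne : (Set.pi Set.univ
      (fun i : Fin (n+1) => if i = 0 then Set.Ioo (-r) r else Set.Ioo 0 r)).Nonempty := by
    refine ⟨fun i => if i = 0 then 0 else r / 2, ?_⟩
    intro i _
    by_cases h : i = 0
    · show (if i = 0 then (0:ℝ) else r / 2) ∈ (if i = 0 then Set.Ioo (-r) r else Set.Ioo 0 r)
      rw [if_pos h, if_pos h]
      exact ⟨by linarith, hr⟩
    · show (if i = 0 then (0:ℝ) else r / 2) ∈ (if i = 0 then Set.Ioo (-r) r else Set.Ioo 0 r)
      rw [if_neg h, if_neg h]
      exact ⟨by linarith, by linarith⟩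
  have hsub : (Set.pi Set.univ
      (fun i : Fin (n+1) => if i = 0 then Set.Ioo (-r) r else Set.Ioo 0 r)) ⊆ C := by
    intro y hy
    have hy' : ∀ i : Fin (n+1), y i ∈ (if i = 0 then Set.Ioo (-r) r else Set.Ioo 0 r) :=
      fun i => hy i (Set.mem_univ i)
    apply hbox
    · intro i
      have hi := hy' i
      by_cases h : i = 0
      · rw [if_pos h] at hi
        exact abs_le.mpr ⟨hi.1.le, hi.2.le⟩
      · rw [if_neg h] at hi
        exact abs_le.mpr ⟨by linarith [hi.1], hi.2.le⟩
    · intro i h
      have hi := hy' i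
      rw [if_neg h] at hi
      exact hi.1.le
  have hpos : 0 < volume C := lt_of_lt_of_le (hUo.measure_pos volume hUne) (measure_mono hsub)
  exact ENNReal.toReal_pos hpos.ne' (halfCorner_volume_ne_top hC)

private theorem sum_single_mul (i : Fin (n+1)) (r : ℝ) (y : Fin (n+1) → ℝ) :
    ∑ j, (Pi.single i r : Fin (n+1) → ℝ) j * y j = r * y i := by
  rw [Finset.sum_eq_single i]
  · rw [Pi.single_eq_same]
  · intro j _ hj
    rw [Pi.single_eq_of_ne hj, zero_mul]
  · intro h
    exact absurd (Finset.mem_univ i) h

/-- The dual of a half corner is a half corner. -/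
theorem halfCorner_dual (hC : HalfCorner C) : HalfCorner (dualCorner C) := by
  obtain ⟨r, hr, hbox⟩ := hC.box
  obtain ⟨R, hR⟩ := hC.bdd
  refine ⟨?_, ?_, ?_, ?_, ?_, ?_⟩
  · -- closed
    have hset : dualCorner C =
        (⋂ i : Fin (n+1), ⋂ (_ : i ≠ 0), {y : Fin (n+1) → ℝ | 0 ≤ y i}) ∩
        (⋂ x ∈ C, {y : Fin (n+1) → ℝ | ∑ i, x i * y i ≤ 1}) := by
      ext y
      simp only [dualCorner, Set.mem_ofPred_eq, Set.mem_inter_iff, Set.mem_iInter]
    rw [hset]
    refine IsClosed.inter ?_ ?_
    · exact isClosed_iInter fun i => isClosed_iInter fun _ =>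
        isClosed_le continuous_const (continuous_apply i)
    · exact isClosed_biInter fun x _ =>
        isClosed_le (continuous_finsetSum _ fun i _ =>
          continuous_const.mul (continuous_apply i)) continuous_const
  · -- convex
    intro y1 hy1 y2 hy2 a b ha hb hab
    refine ⟨fun i hi => ?_, fun x hx => ?_⟩
    · have h1 := hy1.1 i hi
      have h2 := hy2.1 i hi
      show 0 ≤ a * y1 i + b * y2 i
      positivity
    · have h1 := hy1.2 x hx
      have h2 := hy2.2 x hx
      have hsum : ∑ i, x i * (a • y1 + b • y2) i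
          = a * ∑ i, x i * y1 i + b * ∑ i, x i * y2 i := by
        rw [Finset.mul_sum, Finset.mul_sum, ← Finset.sum_add_distrib]
        refine Finset.sum_congr rfl fun i _ => ?_
        simp only [Pi.add_apply, Pi.smul_apply, smul_eq_mul]
        ring
      rw [hsum]
      nlinarith
  · -- bounded
    refine ⟨1 / r, fun y hy i => ?_⟩
    by_cases h : i = 0
    · subst h
      have hp : (Pi.single 0 r : Fin (n+1) → ℝ) ∈ C := by
        apply hbox
        · intro j
          by_cases hj : j = 0
          · rw [hj, Pi.single_eq_same]; exact le_of_eq (abs_of_pos hr)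
          · rw [Pi.single_eq_of_ne hj, abs_zero]; exact hr.le
        · intro j hj
          rw [Pi.single_eq_of_ne hj]
      have hm : (Pi.single 0 (-r) : Fin (n+1) → ℝ) ∈ C := by
        apply hbox
        · intro j
          by_cases hj : j = 0
          · rw [hj, Pi.single_eq_same, abs_neg]; exact le_of_eq (abs_of_pos hr)
          · rw [Pi.single_eq_of_ne hj, abs_zero]; exact hr.le
        · intro j hj
          rw [Pi.single_eq_of_ne hj]
      have h1 := hy.2 _ hp
      have h2 := hy.2 _ hm
      rw [sum_single_mul] at h1 h2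
      rw [abs_le]
      constructor
      · rw [neg_le, div_eq_inv_mul, mul_one]
        rw [← one_div, le_div_iff₀ hr]
        linarith
      · rw [le_div_iff₀ hr]
        linarith
    · have hp : (Pi.single i r : Fin (n+1) → ℝ) ∈ C := by
        apply hbox
        · intro j
          by_cases hj : j = i
          · rw [hj, Pi.single_eq_same]; exact le_of_eq (abs_of_pos hr)
          · rw [Pi.single_eq_of_ne hj, abs_zero]; exact hr.le
        · intro j _
          by_cases hj : j = i
          · rw [hj, Pi.single_eq_same]; exact hr.le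
          · rw [Pi.single_eq_of_ne hj]
      have h1 := hy.2 _ hp
      rw [sum_single_mul] at h1
      have h0 := hy.1 i h
      rw [abs_of_nonneg h0, le_div_iff₀ hr]
      linarith
  · -- nonneg
    intro y hy i hi
    exact hy.1 i hi
  · -- down
    intro y hy y' h0 hle
    refine ⟨fun i hi => (hle i hi).1, fun x hx => ?_⟩
    refine le_trans (Finset.sum_le_sum fun i _ => ?_) (hy.2 x hx)
    by_cases h : i = 0
    · rw [h, h0]
    · exact mul_le_mul_of_nonneg_left (hle i h).2 (hC.nonneg x hx i h)
  · -- box
    have hR0 : 0 < max R 1 := lt_of_lt_of_le one_pos (le_max_right R 1)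
    have hn : (0:ℝ) < (n:ℝ) + 1 := by positivity
    refine ⟨1 / (((n:ℝ) + 1) * max R 1), by positivity, fun y hy hy0 => ⟨hy0, fun x hx => ?_⟩⟩
    have hterm : ∀ i : Fin (n+1), x i * y i ≤ max R 1 * (1 / (((n:ℝ) + 1) * max R 1)) := by
      intro i
      have h1 : |x i| ≤ max R 1 := le_trans (hR x hx i) (le_max_left R 1)
      have h2 := hy i
      calc x i * y i ≤ |x i * y i| := le_abs_self _
        _ = |x i| * |y i| := abs_mul _ _
        _ ≤ max R 1 * (1 / (((n:ℝ) + 1) * max R 1)) :=
            mul_le_mul h1 h2 (abs_nonneg _) hR0.le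
    calc ∑ i, x i * y i ≤ ∑ _i : Fin (n+1), max R 1 * (1 / (((n:ℝ) + 1) * max R 1)) :=
          Finset.sum_le_sum fun i _ => hterm i
      _ = 1 := by
          rw [Finset.sum_const, Finset.card_univ, Fintype.card_fin, nsmul_eq_mul]
          push_cast
          field_simp

end Vale.Agent.Lib.P248
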