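import Vale.Agent.Lib.P248.Corner

open MeasureTheory Set

namespace Vale.Agent.Lib.P248

variable {n : ℕ} {C : Set (Fin (n+2) → ℝ)}

/-- Coordinate `0` of the inserted point, for an insertion index `i ≠ 0`. -/
private theorem fc_insert_zero (i : Fin (n+2)) (hi : i ≠ 0) (g : Fin (n+1) → ℝ) :
    (i.insertNth (0 : ℝ) g : Fin (n+2) → ℝ) 0 = g 0 := by
  have h := Fin.insertNth_apply_succAbove (α := fun _ => ℝ) i (0 : ℝ) g 0
  rwa [Fin.succAbove_ne_zero_zero hi] at h

/-- Coordinate `i` of the inserted point. -/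
private theorem fc_insert_same (i : Fin (n+2)) (g : Fin (n+1) → ℝ) :
    (i.insertNth (0 : ℝ) g : Fin (n+2) → ℝ) i = 0 :=
  Fin.insertNth_apply_same (α := fun _ => ℝ) i (0 : ℝ) g

/-- The other coordinates of the inserted point. -/
private theorem fc_insert_succAbove (i : Fin (n+2)) (g : Fin (n+1) → ℝ) (k : Fin (n+1)) :
    (i.insertNth (0 : ℝ) g : Fin (n+2) → ℝ) (i.succAbove k) = g k :=
  Fin.insertNth_apply_succAbove (α := fun _ => ℝ) i (0 : ℝ) g k

/-- A nonzero index different from `i ≠ 0` comes from a nonzero index. -/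
private theorem fc_index (i : Fin (n+2)) (hi : i ≠ 0) (k : Fin (n+1))
    (hk : i.succAbove k ≠ 0) : k ≠ 0 := by
  intro h
  rw [h, Fin.succAbove_ne_zero_zero hi] at hk
  exact hk rfl

/-- The facets of a half corner in the symmetric coordinate hyperplanes are half corners. -/
theorem halfCorner_facet (hC : HalfCorner C) (i : Fin (n+2)) (hi : i ≠ 0) :
    HalfCorner (facet C i) := by
  refine ⟨?_, ?_, ?_, ?_, ?_, ?_⟩
  · have hcont : Continuous
        (fun g : Fin (n+1) → ℝ => (i.insertNth (0 : ℝ) g : Fin (n+2) → ℝ)) := by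
      refine continuous_pi (fun j => ?_)
      rcases eq_or_ne j i with rfl | hj
      · simp only [fc_insert_same]
        exact continuous_const
      · obtain ⟨k, rfl⟩ := Fin.exists_succAbove_eq hj
        simp only [fc_insert_succAbove]
        exact continuous_apply k
    exact hC.closed.preimage hcont
  · intro g hg g' hg' a b ha hb hab
    have e : (i.insertNth (0 : ℝ) (a • g + b • g') : Fin (n+2) → ℝ)
        = a • (i.insertNth (0 : ℝ) g : Fin (n+2) → ℝ) + b • (i.insertNth (0 : ℝ) g') := by
      funext j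
      rcases eq_or_ne j i with rfl | hj
      · simp only [fc_insert_same, Pi.add_apply, Pi.smul_apply, smul_eq_mul, mul_zero,
          add_zero]
      · obtain ⟨k, rfl⟩ := Fin.exists_succAbove_eq hj
        simp only [fc_insert_succAbove, Pi.add_apply, Pi.smul_apply, smul_eq_mul]
    show (i.insertNth (0 : ℝ) (a • g + b • g') : Fin (n+2) → ℝ) ∈ C
    rw [e]
    exact hC.convex hg hg' ha hb hab
  · obtain ⟨R, hR⟩ := hC.bdd
    refine ⟨R, fun g hg k => ?_⟩
    have h := hR _ hg (i.succAbove k)
    rwa [fc_insert_succAbove] at h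
  · intro g hg k hk
    have h := hC.nonneg _ hg (i.succAbove k) (Fin.succAbove_ne_zero hi hk)
    rwa [fc_insert_succAbove] at h
  · intro g hg g' h0 h
    show (i.insertNth (0 : ℝ) g' : Fin (n+2) → ℝ) ∈ C
    refine hC.down _ hg _ ?_ ?_
    · rw [fc_insert_zero i hi, fc_insert_zero i hi]
      exact h0
    · intro j hj0
      rcases eq_or_ne j i with rfl | hj
      · rw [fc_insert_same, fc_insert_same]
        exact ⟨le_rfl, le_rfl⟩
      · obtain ⟨k, rfl⟩ := Fin.exists_succAbove_eq hj
        rw [fc_insert_succAbove, fc_insert_succAbove]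
        exact h k (fc_index i hi k hj0)
  · obtain ⟨r, hr, hbox⟩ := hC.box
    refine ⟨r, hr, fun g hg hg0 => ?_⟩
    show (i.insertNth (0 : ℝ) g : Fin (n+2) → ℝ) ∈ C
    refine hbox _ ?_ ?_
    · intro j
      rcases eq_or_ne j i with rfl | hj
      · rw [fc_insert_same, abs_zero]
        exact hr.le
      · obtain ⟨k, rfl⟩ := Fin.exists_succAbove_eq hj
        rw [fc_insert_succAbove]
        exact hg k
    · intro j hj0
      rcases eq_or_ne j i with rfl | hj
      · rw [fc_insert_same]
      · obtain ⟨k, rfl⟩ := Fin.exists_succAbove_eq hj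
        rw [fc_insert_succAbove]
        exact hg0 k (fc_index i hi k hj0)

/-- The pairing with an inserted point. -/
private theorem fc_sum (i : Fin (n+2)) (x : Fin (n+2) → ℝ) (y : Fin (n+1) → ℝ) :
    ∑ j, x j * (i.insertNth (0 : ℝ) y : Fin (n+2) → ℝ) j = ∑ k, x (i.succAbove k) * y k := by
  rw [Fin.sum_univ_succAbove _ i]
  simp only [fc_insert_same, fc_insert_succAbove, mul_zero, zero_add]

/-- The facet of the dual is the dual of the facet (projection equals section). -/
theorem facet_dualCorner (hC : HalfCorner C) (i : Fin (n+2)) (hi : i ≠ 0) :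
    facet (dualCorner C) i = dualCorner (facet C i) := by
  ext y
  constructor
  · intro hy
    have hy' : (∀ j, j ≠ 0 → 0 ≤ (i.insertNth (0 : ℝ) y : Fin (n+2) → ℝ) j) ∧
        ∀ x ∈ C, ∑ j, x j * (i.insertNth (0 : ℝ) y : Fin (n+2) → ℝ) j ≤ 1 := hy
    obtain ⟨hnn, hsum⟩ := hy'
    refine ⟨fun k hk => ?_, fun g hg => ?_⟩
    · have h := hnn (i.succAbove k) (Fin.succAbove_ne_zero hi hk)
      rwa [fc_insert_succAbove] at h
    · have hg' : (i.insertNth (0 : ℝ) g : Fin (n+2) → ℝ) ∈ C := hg
      have h := hsum _ hg'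
      rw [fc_sum] at h
      simp only [fc_insert_succAbove] at h
      exact h
  · intro hy
    obtain ⟨hnn, hsum⟩ := hy
    show (i.insertNth (0 : ℝ) y : Fin (n+2) → ℝ) ∈ dualCorner C
    refine ⟨fun j hj0 => ?_, fun x hx => ?_⟩
    · rcases eq_or_ne j i with rfl | hj
      · rw [fc_insert_same]
      · obtain ⟨k, rfl⟩ := Fin.exists_succAbove_eq hj
        rw [fc_insert_succAbove]
        exact hnn k (fc_index i hi k hj0)
    · rw [fc_sum]
      have hg : (fun k => x (i.succAbove k)) ∈ facet C i := by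
        show (i.insertNth (0 : ℝ) (fun k => x (i.succAbove k)) : Fin (n+2) → ℝ) ∈ C
        refine hC.down x hx _ ?_ ?_
        · rw [fc_insert_zero i hi, Fin.succAbove_ne_zero_zero hi]
        · intro j hj0
          rcases eq_or_ne j i with rfl | hj
          · rw [fc_insert_same]
            exact ⟨le_rfl, hC.nonneg x hx j hj0⟩
          · obtain ⟨k, rfl⟩ := Fin.exists_succAbove_eq hj
            rw [fc_insert_succAbove]
            exact ⟨hC.nonneg x hx _ hj0, le_rfl⟩
      exact hsum _ hg

end Vale.Agent.Lib.P248
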