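import Vale.Agent.Lib.P248.Slice
import Vale.Agent.Lib.P248.Dual
import Vale.Agent.Lib.P248.Facet
import Vale.Agent.Lib.P248.ConePos
import Vale.Agent.Lib.P248.ConeHom

open MeasureTheory Set

namespace Vale.Agent.Lib.P248

variable {n : ℕ} {C : Set (Fin (n+2) → ℝ)}

/-- The cone region is measurable. -/
private theorem coneRegion_measurable (hC : HalfCorner C) (p : Fin (n+2) → ℝ) (i : Fin (n+2)) :
    MeasurableSet (coneRegion C p i) := by
  have e : coneRegion C p i = C ∩ {x | 0 < x i} ∩ {x | x i < p i} ∩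
      ⋂ j : Fin (n+2), {x | j ≠ 0 → j ≠ i → x i * p j < x j * p i} := by
    ext x
    simp only [coneRegion, mem_ofPred_eq, mem_inter_iff, mem_iInter]
    tauto
  rw [e]
  refine (((hC.closed.measurableSet).inter ?_).inter ?_).inter (MeasurableSet.iInter fun j => ?_)
  · exact measurableSet_lt measurable_const (measurable_pi_apply i)
  · exact measurableSet_lt (measurable_pi_apply i) measurable_const
  · by_cases hj : j ≠ 0 ∧ j ≠ i
    · have h : {x : Fin (n+2) → ℝ | j ≠ 0 → j ≠ i → x i * p j < x j * p i}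
          = {x | x i * p j < x j * p i} := by
        ext x
        simp only [mem_ofPred_eq]
        constructor
        · intro h
          exact h hj.1 hj.2
        · intro h _ _
          exact h
      rw [h]
      exact measurableSet_lt ((measurable_pi_apply i).mul_const _)
        ((measurable_pi_apply j).mul_const _)
    · have h : {x : Fin (n+2) → ℝ | j ≠ 0 → j ≠ i → x i * p j < x j * p i} = univ := by
        ext x
        simp only [mem_ofPred_eq, mem_univ, iff_true]
        intro h1 h2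
        exact absurd ⟨h1, h2⟩ hj
      rw [h]
      exact MeasurableSet.univ

/-- `∫₀^q (1 - τ/q)^(n+1) dτ = q/(n+2)` as a lower integral. -/
private theorem lintegral_cone_profile (n : ℕ) {q : ℝ} (hq : 0 < q) :
    ∫⁻ τ in Ioo (0:ℝ) q, ENNReal.ofReal ((1 - τ / q) ^ (n+1))
      = ENNReal.ofReal (q / ((n:ℝ) + 2)) := by
  have hcont : Continuous (fun τ : ℝ => (1 - τ / q) ^ (n+1)) := by fun_prop
  have hnn : 0 ≤ᵐ[volume.restrict (Ioo (0:ℝ) q)] fun τ : ℝ => (1 - τ / q) ^ (n+1) := by
    filter_upwards [ae_restrict_mem measurableSet_Ioo] with τ hτ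
    apply pow_nonneg
    have h : τ / q < 1 := (div_lt_one hq).mpr hτ.2
    linarith
  have hintg : Integrable (fun τ : ℝ => (1 - τ / q) ^ (n+1)) (volume.restrict (Ioo (0:ℝ) q)) :=
    (hcont.integrableOn_Icc (a := 0) (b := q)).mono_set Ioo_subset_Icc_self
  rw [← ofReal_integral_eq_lintegral_ofReal hintg hnn]
  have hq0 : q ≠ 0 := hq.ne'
  have hn0 : ((n:ℝ) + 2) ≠ 0 := by positivity
  have hderiv : ∀ τ ∈ uIcc (0:ℝ) q,
      HasDerivAt (fun τ : ℝ => -(q / ((n:ℝ) + 2)) * (1 - τ / q) ^ (n+2))
        ((1 - τ / q) ^ (n+1)) τ := by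
    intro τ _
    have h1 : HasDerivAt (fun τ : ℝ => 1 - τ / q) (-(1 / q)) τ := by
      have h := ((hasDerivAt_id τ).div_const q).const_sub 1
      simpa using h
    have h2 := (h1.pow (n+2)).const_mul (-(q / ((n:ℝ) + 2)))
    refine h2.congr_deriv ?_
    push_cast
    field_simp
  have hval : ∫ τ in Ioo (0:ℝ) q, (1 - τ / q) ^ (n+1) = q / ((n:ℝ) + 2) := by
    rw [← integral_Ioc_eq_integral_Ioo, ← intervalIntegral.integral_of_le hq.le,
      intervalIntegral.integral_eq_sub_of_hasDerivAt hderiv (hcont.intervalIntegrable _ _)]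
    simp [div_self hq0]
  rw [hval]

/-- The cone region over the facet `x i = 0` has volume at least `p i |facet| / (n+2)`. -/
theorem cone_slice (hC : HalfCorner C) {p : Fin (n+2) → ℝ} (hp : p ∈ C)
    (i : Fin (n+2)) (hi : i ≠ 0) (hpi : 0 < p i) :
    p i * vol (facet C i) ≤ ((n:ℝ) + 2) * vol (coneRegion C p i) := by
  have hmeas : MeasurableSet (coneRegion C p i) := coneRegion_measurable hC p i
  have hsub : coneRegion C p i ⊆ C := fun x hx => hx.1
  have hfin : volume (coneRegion C p i) ≠ ⊤ :=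
    ne_top_of_le_ne_top (halfCorner_volume_ne_top hC) (measure_mono hsub)
  have hslice := volume_eq_lintegral_slice i hmeas
  have hFvol : volume {g : Fin (n+1) → ℝ | g ∈ facet C i ∧ ∀ k, k ≠ 0 → 0 < g k}
      = volume (facet C i) := volume_facet_pos hC i hi
  have hlow : ∀ τ ∈ Ioo (0:ℝ) (p i),
      ENNReal.ofReal ((1 - τ / p i) ^ (n+1)) * volume (facet C i)
        ≤ volume {g : Fin (n+1) → ℝ | i.insertNth τ g ∈ coneRegion C p i} := by
    intro τ hτ
    have h1 := coneRegion_slice hC hp i hi hτ.1 hτ.2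
    have h2 := measure_mono (μ := volume) h1
    rw [Measure.addHaar_image_homothety, Module.finrank_fin_fun, hFvol] at h2
    have hnn : 0 ≤ (1 - τ / p i) ^ (n+1) := by
      apply pow_nonneg
      have h : τ / p i < 1 := (div_lt_one hpi).mpr hτ.2
      linarith
    rw [abs_of_nonneg hnn] at h2
    exact h2
  have hmain : ENNReal.ofReal (p i / ((n:ℝ) + 2)) * volume (facet C i)
      ≤ volume (coneRegion C p i) := by
    rw [hslice, ← lintegral_cone_profile n hpi]
    have hmeasf : Measurable (fun τ : ℝ => ENNReal.ofReal ((1 - τ / p i) ^ (n+1))) := by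
      fun_prop
    rw [← lintegral_mul_const _ hmeasf]
    calc ∫⁻ τ in Ioo (0:ℝ) (p i), ENNReal.ofReal ((1 - τ / p i) ^ (n+1)) * volume (facet C i)
        ≤ ∫⁻ τ in Ioo (0:ℝ) (p i),
            volume {g : Fin (n+1) → ℝ | i.insertNth τ g ∈ coneRegion C p i} :=
          setLIntegral_mono' measurableSet_Ioo hlow
      _ ≤ ∫⁻ τ : ℝ, volume {g : Fin (n+1) → ℝ | i.insertNth τ g ∈ coneRegion C p i} :=
          setLIntegral_le_lintegral _ _
  have hn : (0:ℝ) < (n:ℝ) + 2 := by positivity
  have h3 := ENNReal.toReal_mono hfin hmain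
  rw [ENNReal.toReal_mul, ENNReal.toReal_ofReal (div_nonneg hpi.le hn.le)] at h3
  unfold vol
  rw [div_mul_eq_mul_div, div_le_iff₀ hn] at h3
  linarith

end Vale.Agent.Lib.P248
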