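import Vale.Agent.Lib.P248.Defs

/-!
# P248: half corners (positive parts of bodies symmetric in all coordinates but the first)

Coordinate `0` is the free coordinate (the axis); the coordinates `i ≠ 0` are the symmetric ones.
-/

open MeasureTheory Set

namespace Vale.Agent.Lib.P248

/-- A half corner in `ℝ^(n+1)`: a closed bounded convex set contained in the region where all
coordinates `i ≠ 0` are nonnegative, closed under decreasing these coordinates towards zero, and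
containing a box around the origin (relative to that region). -/
structure HalfCorner {n : ℕ} (C : Set (Fin (n+1) → ℝ)) : Prop where
  closed : IsClosed C
  convex : Convex ℝ C
  bdd : ∃ R : ℝ, ∀ x ∈ C, ∀ i, |x i| ≤ R
  nonneg : ∀ x ∈ C, ∀ i, i ≠ 0 → 0 ≤ x i
  down : ∀ x ∈ C, ∀ y : Fin (n+1) → ℝ, y 0 = x 0 → (∀ i, i ≠ 0 → 0 ≤ y i ∧ y i ≤ x i) → y ∈ C
  box : ∃ r : ℝ, 0 < r ∧ ∀ y : Fin (n+1) → ℝ, (∀ i, |y i| ≤ r) → (∀ i, i ≠ 0 → 0 ≤ y i) → y ∈ C

/-- The dual half corner: the points with nonnegative coordinates `i ≠ 0` whose pairing with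
every point of `C` is at most one. -/
def dualCorner {n : ℕ} (C : Set (Fin (n+1) → ℝ)) : Set (Fin (n+1) → ℝ) :=
  {y | (∀ i, i ≠ 0 → 0 ≤ y i) ∧ ∀ x ∈ C, ∑ i, x i * y i ≤ 1}

/-- The facet of `C` in the coordinate hyperplane `x i = 0`, as a subset of `ℝ^(n+1)`. -/
def facet {n : ℕ} (C : Set (Fin (n+2) → ℝ)) (i : Fin (n+2)) : Set (Fin (n+1) → ℝ) :=
  {g | i.insertNth 0 g ∈ C}

/-- The part of `C` swept by the segments from `p` to the facet `x i = 0`. -/
def coneRegion {n : ℕ} (C : Set (Fin (n+2) → ℝ)) (p : Fin (n+2) → ℝ) (i : Fin (n+2)) :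
    Set (Fin (n+2) → ℝ) :=
  {x | x ∈ C ∧ 0 < x i ∧ x i < p i ∧ ∀ j, j ≠ 0 → j ≠ i → x i * p j < x j * p i}

/-- The positive part of the translate `K - z`. -/
def cornerOf {n : ℕ} (K : Set (Fin (n+1) → ℝ)) (z : Fin (n+1) → ℝ) : Set (Fin (n+1) → ℝ) :=
  {x | x + z ∈ K ∧ ∀ i, i ≠ 0 → 0 ≤ x i}

end Vale.Agent.Lib.P248
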