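import Mathlib

/-!
# P248, volume product: definitions used in the statement
-/

open MeasureTheory

namespace Vale.Agent.Lib.P248

/-- Lebesgue volume `|K|` of a set `K ⊆ ℝ^n`, as a real number. -/
noncomputable def vol {n : ℕ} (K : Set (Fin n → ℝ)) : ℝ :=
  (volume K).toReal

/-- The polar body `(K - z)° = {y : ⟨y, x - z⟩ ≤ 1 for all x ∈ K}` of `K` with respect to the
point `z`. -/
def polarAt {n : ℕ} (K : Set (Fin n → ℝ)) (z : Fin n → ℝ) : Set (Fin n → ℝ) :=
  {y | ∀ x ∈ K, ∑ i, y i * (x i - z i) ≤ 1}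

end Vale.Agent.Lib.P248
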