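import Vale.Agent.Lib.P248.Support

open MeasureTheory Set

namespace Vale.Agent.Lib.P248

/-- The sign change of the coordinate `i`. -/
private def flipS {m : ℕ} (i : Fin m) (y : Fin m → ℝ) : Fin m → ℝ :=
  fun j => if j = i then -(y j) else y j

private theorem flipS_eq_update {m : ℕ} (i : Fin m) (y : Fin m → ℝ) :
    Function.update y i (-(y i)) = flipS i y := by
  funext j
  unfold flipS
  by_cases h : j = i
  · rw [if_pos h, h, Function.update_self]
  · rw [if_neg h, Function.update_of_ne h]

private theorem flipS_flipS {m : ℕ} (i : Fin m) (y : Fin m → ℝ) :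
    flipS i (flipS i y) = y := by
  funext j
  unfold flipS
  by_cases h : j = i
  · rw [if_pos h, if_pos h, neg_neg]
  · rw [if_neg h, if_neg h]

private theorem flipS_continuous {m : ℕ} (i : Fin m) :
    Continuous (flipS (m := m) i) := by
  refine continuous_pi (fun j => ?_)
  unfold flipS
  split_ifs with h
  · exact (continuous_apply j).neg
  · exact continuous_apply j

private theorem flipS_measurePreserving {m : ℕ} (i : Fin m) :
    MeasurePreserving (flipS (m := m) i) volume volume := by
  have hfun : flipS (m := m) i =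
      fun (y : Fin m → ℝ) (j : Fin m) => (if j = i then (Neg.neg : ℝ → ℝ) else id) (y j) := by
    funext y j
    unfold flipS
    by_cases h : j = i
    · rw [if_pos h, if_pos h]
    · rw [if_neg h, if_neg h]
      rfl
  rw [hfun]
  refine volume_preserving_pi (fun j => ?_)
  by_cases h : j = i
  · rw [if_pos h]
    exact Measure.measurePreserving_neg volume
  · rw [if_neg h]
    exact MeasurePreserving.id volume

private theorem flipS_dot {m : ℕ} (i : Fin m) (y x : Fin m → ℝ) :
    ∑ j, (flipS i y) j * x j = ∑ j, y j * (flipS i x) j := by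
  refine Finset.sum_congr rfl (fun j _ => ?_)
  unfold flipS
  split_ifs with h
  · ring
  · rfl

private theorem flipS_dot_both {m : ℕ} (i : Fin m) (y x : Fin m → ℝ) :
    ∑ j, (flipS i y) j * (flipS i x) j = ∑ j, y j * x j := by
  refine Finset.sum_congr rfl (fun j _ => ?_)
  unfold flipS
  split_ifs with h
  · ring
  · rfl

private theorem flipS_half {m : ℕ} (i : Fin m) (z : Fin m → ℝ) :
    Function.update z i 0 = (1 / 2 : ℝ) • z + (1 / 2 : ℝ) • flipS i z := by
  funext j
  simp only [Pi.add_apply, Pi.smul_apply, smul_eq_mul]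
  unfold flipS
  by_cases h : j = i
  · rw [if_pos h, h, Function.update_self]
    ring
  · rw [if_neg h, Function.update_of_ne h]
    ring

/-- Moving the centre of polarity onto a hyperplane of symmetry does not increase the volume of
the polar. -/
theorem polar_vol_flip_le {m : ℕ} {K : Set (Fin m → ℝ)} (hK : IsCompact K) (hc : Convex ℝ K)
    (i : Fin m) (hflip : ∀ x ∈ K, Function.update x i (-(x i)) ∈ K)
    {z : Fin m → ℝ} (hz : z ∈ interior K) :
    Function.update z i 0 ∈ interior K ∧
      vol (polarAt K (Function.update z i 0)) ≤ vol (polarAt K z) := by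
  have hflipK : ∀ x ∈ K, flipS i x ∈ K := by
    intro x hx
    rw [← flipS_eq_update]
    exact hflip x hx
  have hsub : flipS i ⁻¹' interior K ⊆ interior K := by
    apply interior_maximal
    · intro x hx
      have h1 : flipS i x ∈ K := interior_subset hx
      have h2 := hflipK _ h1
      rwa [flipS_flipS] at h2
    · exact isOpen_interior.preimage (flipS_continuous i)
  have hsz : flipS i z ∈ interior K := by
    apply hsub
    show flipS i (flipS i z) ∈ interior K
    rw [flipS_flipS]
    exact hz
  have hz' : Function.update z i 0 ∈ interior K := by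
    rw [flipS_half]
    exact hc.interior hz hsz (by norm_num) (by norm_num) (by norm_num)
  refine ⟨hz', ?_⟩
  obtain ⟨hF, hFint⟩ := polar_vol_eq_integral hK hz
  obtain ⟨hF', hF'int⟩ := polar_vol_eq_integral hK hz'
  have hsupp : ∀ y : Fin m → ℝ, supp K (flipS i y) = supp K y := by
    intro y
    unfold supp
    congr 1
    ext t
    constructor
    · rintro ⟨x, hx, rfl⟩
      exact ⟨flipS i x, hflipK x hx, (flipS_dot i y x).symm⟩
    · rintro ⟨x, hx, rfl⟩
      exact ⟨flipS i x, hflipK x hx, flipS_dot_both i y x⟩
  have hmp := flipS_measurePreserving (m := m) i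
  have hmap : Measure.map (flipS (m := m) i) volume = volume := hmp.map_eq
  have hFs : Integrable (fun y : Fin m → ℝ =>
      Real.exp (-(supp K (flipS i y) - ∑ j, (flipS i y) j * z j))) := by
    have h1 : Integrable (fun y : Fin m → ℝ => Real.exp (-(supp K y - ∑ j, y j * z j)))
        (Measure.map (flipS (m := m) i) volume) := by
      rw [hmap]
      exact hF
    exact h1.comp_measurable hmp.measurable
  have hint : ∫ y : Fin m → ℝ, Real.exp (-(supp K (flipS i y) - ∑ j, (flipS i y) j * z j)) =
      ∫ y : Fin m → ℝ, Real.exp (-(supp K y - ∑ j, y j * z j)) := by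
    have h := integral_map (μ := (volume : Measure (Fin m → ℝ))) (φ := flipS (m := m) i)
      hmp.measurable.aemeasurable
      (f := fun y : Fin m → ℝ => Real.exp (-(supp K y - ∑ j, y j * z j)))
      (by rw [hmap]; exact hF.aestronglyMeasurable)
    rw [hmap] at h
    exact h.symm
  have hpt : ∀ y : Fin m → ℝ,
      Real.exp (-(supp K y - ∑ j, y j * (Function.update z i 0) j)) ≤
        (1 / 2) * Real.exp (-(supp K y - ∑ j, y j * z j)) +
          (1 / 2) * Real.exp (-(supp K (flipS i y) - ∑ j, (flipS i y) j * z j)) := by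
    intro y
    rw [hsupp y, flipS_dot i y z]
    have hs : ∑ j, y j * (Function.update z i 0) j =
        (1 / 2) * ∑ j, y j * z j + (1 / 2) * ∑ j, y j * (flipS i z) j := by
      rw [flipS_half, Finset.mul_sum, Finset.mul_sum, ← Finset.sum_add_distrib]
      refine Finset.sum_congr rfl (fun j _ => ?_)
      simp only [Pi.add_apply, Pi.smul_apply, smul_eq_mul]
      ring
    have e : -(supp K y - ∑ j, y j * (Function.update z i 0) j) =
        (1 / 2) * (-(supp K y - ∑ j, y j * z j)) +
          (1 / 2) * (-(supp K y - ∑ j, y j * (flipS i z) j)) := by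
      rw [hs]
      ring
    rw [e]
    have hconv := convexOn_exp.2 (Set.mem_univ (-(supp K y - ∑ j, y j * z j)))
      (Set.mem_univ (-(supp K y - ∑ j, y j * (flipS i z) j)))
      (by norm_num : (0 : ℝ) ≤ 1 / 2) (by norm_num : (0 : ℝ) ≤ 1 / 2)
      (by norm_num : (1 / 2 : ℝ) + 1 / 2 = 1)
    simp only [smul_eq_mul] at hconv
    exact hconv
  have hle : ∫ y : Fin m → ℝ, Real.exp (-(supp K y - ∑ j, y j * (Function.update z i 0) j)) ≤
      ∫ y : Fin m → ℝ, ((1 / 2) * Real.exp (-(supp K y - ∑ j, y j * z j)) +
          (1 / 2) * Real.exp (-(supp K (flipS i y) - ∑ j, (flipS i y) j * z j))) :=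
    integral_mono hF' ((hF.const_mul _).add (hFs.const_mul _)) hpt
  have hsum : ∫ y : Fin m → ℝ, ((1 / 2) * Real.exp (-(supp K y - ∑ j, y j * z j)) +
          (1 / 2) * Real.exp (-(supp K (flipS i y) - ∑ j, (flipS i y) j * z j))) =
      ∫ y : Fin m → ℝ, Real.exp (-(supp K y - ∑ j, y j * z j)) := by
    rw [integral_add (hF.const_mul _) (hFs.const_mul _), integral_const_mul,
      integral_const_mul, hint]
    ring
  rw [hsum, hF'int, hFint] at hle
  exact le_of_mul_le_mul_left hle (Nat.cast_pos.mpr (Nat.factorial_pos m))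

end Vale.Agent.Lib.P248
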