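import Vale.Agent.Lib.P248.Flip

open MeasureTheory Set

namespace Vale.Agent.Lib.P248

/-- Finset induction behind `polar_vol_axis_le`: the coordinates in `S` can be moved to zero one
at a time, each move keeping the point interior and not increasing the volume of the polar. -/
private theorem polar_vol_axis_aux {n : ℕ} {K : Set (Fin (n+1) → ℝ)} (hK : IsCompact K)
    (hc : Convex ℝ K)
    (hflip : ∀ i : Fin (n+1), i ≠ 0 → ∀ x ∈ K, Function.update x i (-(x i)) ∈ K)
    {z : Fin (n+1) → ℝ} (hz : z ∈ interior K) (S : Finset (Fin (n+1))) :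
    (∀ i ∈ S, i ≠ 0) →
      ∃ z' : Fin (n+1) → ℝ, (∀ i ∈ S, z' i = 0) ∧ z' ∈ interior K ∧
        vol (polarAt K z') ≤ vol (polarAt K z) := by
  induction S using Finset.induction_on with
  | empty =>
    intro _
    exact ⟨z, fun i hi => by simp at hi, hz, le_refl _⟩
  | insert j S hj ih =>
    intro hS
    obtain ⟨w, hw0, hwK, hwv⟩ := ih (fun i hi => hS i (Finset.mem_insert_of_mem hi))
    have hj0 : j ≠ 0 := hS j (Finset.mem_insert_self j S)
    obtain ⟨h1, h2⟩ := polar_vol_flip_le hK hc j (hflip j hj0) hwK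
    refine ⟨Function.update w j 0, ?_, h1, h2.trans hwv⟩
    intro i hi
    by_cases hij : i = j
    · rw [hij, Function.update_self]
    · rw [Function.update_of_ne hij]
      rcases Finset.mem_insert.mp hi with h | h
      · exact absurd h hij
      · exact hw0 i h

/-- Moving the centre of polarity onto the axis does not increase the volume of the polar. -/
theorem polar_vol_axis_le {n : ℕ} {K : Set (Fin (n+1) → ℝ)} (hK : IsCompact K)
    (hc : Convex ℝ K)
    (hflip : ∀ i : Fin (n+1), i ≠ 0 → ∀ x ∈ K, Function.update x i (-(x i)) ∈ K)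
    {z : Fin (n+1) → ℝ} (hz : z ∈ interior K) :
    ∃ z' : Fin (n+1) → ℝ, (∀ i, i ≠ 0 → z' i = 0) ∧ z' ∈ interior K ∧
      vol (polarAt K z') ≤ vol (polarAt K z) := by
  obtain ⟨z', h0, h1, h2⟩ := polar_vol_axis_aux hK hc hflip hz
    (Finset.univ.filter (fun i : Fin (n+1) => i ≠ 0))
    (fun i hi => (Finset.mem_filter.mp hi).2)
  exact ⟨z', fun i hi => h0 i (Finset.mem_filter.mpr ⟨Finset.mem_univ i, hi⟩), h1, h2⟩

end Vale.Agent.Lib.P248
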