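import Vale.Agent.Lib.P248.Defs

open MeasureTheory Set

open scoped Pointwise

namespace Vale.Agent.Lib.P248

/-- The sublevel set at level `t > 0` of a positively homogeneous function is the dilate of
the unit sublevel set. -/
theorem ga_sublevel {m : ℕ} (g : (Fin m → ℝ) → ℝ)
    (hhom : ∀ (t : ℝ) (y : Fin m → ℝ), 0 ≤ t → g (t • y) = t * g y) {t : ℝ} (ht : 0 < t) :
    {y | g y ≤ t} = t • {y | g y ≤ 1} := by
  ext y
  rw [Set.mem_smul_set_iff_inv_smul_mem₀ ht.ne']
  simp only [Set.mem_setOf_eq]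
  rw [hhom t⁻¹ y (inv_nonneg.mpr ht.le), inv_mul_le_iff₀ ht, mul_one]

/-- The volume of the sublevel set at level `t > 0`. -/
theorem ga_volume_sublevel {m : ℕ} (g : (Fin m → ℝ) → ℝ)
    (hhom : ∀ (t : ℝ) (y : Fin m → ℝ), 0 ≤ t → g (t • y) = t * g y) {t : ℝ} (ht : 0 < t) :
    volume {y | g y ≤ t} = ENNReal.ofReal (t ^ m) * volume {y | g y ≤ 1} := by
  rw [ga_sublevel g hhom ht, Measure.addHaar_smul]
  simp [abs_of_pos (pow_pos ht m)]

/-- The integral of `exp (-t) t^m` over the positive half line, as a lower integral. -/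
theorem ga_gamma (m : ℕ) :
    ∫⁻ t in Ioi (0:ℝ), ENNReal.ofReal (Real.exp (-t) * t ^ m) =
      ENNReal.ofReal (m.factorial : ℝ) := by
  have hint : IntegrableOn (fun t : ℝ => Real.exp (-t) * t ^ m) (Ioi 0) := by
    have h := Real.GammaIntegral_convergent (s := (m:ℝ) + 1) (by positivity)
    refine h.congr_fun (fun t _ => ?_) measurableSet_Ioi
    simp [Real.rpow_natCast]
  have hval : ∫ t in Ioi (0:ℝ), Real.exp (-t) * t ^ m = (m.factorial : ℝ) := by
    rw [← Real.Gamma_nat_eq_factorial, Real.Gamma_eq_integral (by positivity)]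
    refine setIntegral_congr_fun measurableSet_Ioi (fun t _ => ?_)
    simp [Real.rpow_natCast]
  rw [← hval, ofReal_integral_eq_lintegral_ofReal hint]
  filter_upwards [ae_restrict_mem measurableSet_Ioi] with t ht
  exact mul_nonneg (Real.exp_pos _).le (pow_nonneg (le_of_lt ht) m)

/-- The lower integral form of the layer cake formula. -/
theorem ga_lintegral {m : ℕ} (g : (Fin m → ℝ) → ℝ) (hg : Measurable g)
    (h0 : ∀ y, 0 ≤ g y) (hhom : ∀ (t : ℝ) (y : Fin m → ℝ), 0 ≤ t → g (t • y) = t * g y) :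
    ∫⁻ y, ENNReal.ofReal (Real.exp (-(g y))) =
      ENNReal.ofReal (m.factorial : ℝ) * volume {y | g y ≤ 1} := by
  have hmeas : Measurable (Function.uncurry fun (y : Fin m → ℝ) (t : ℝ) =>
      ({p : (Fin m → ℝ) × ℝ | g p.1 ≤ p.2}).indicator
        (fun p => ENNReal.ofReal (Real.exp (-p.2))) (y, t)) := by
    have h1 : Measurable (({p : (Fin m → ℝ) × ℝ | g p.1 ≤ p.2}).indicator
        (fun p => ENNReal.ofReal (Real.exp (-p.2)))) :=
      Measurable.indicator (by fun_prop) (measurableSet_le (hg.comp measurable_fst) measurable_snd)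
    exact h1
  have hswap := lintegral_lintegral_swap (μ := (volume : Measure (Fin m → ℝ)))
    (ν := (volume : Measure ℝ)) hmeas.aemeasurable
  have hL : ∀ y : Fin m → ℝ, ∫⁻ t : ℝ, ({p : (Fin m → ℝ) × ℝ | g p.1 ≤ p.2}).indicator
      (fun p => ENNReal.ofReal (Real.exp (-p.2))) (y, t) = ENNReal.ofReal (Real.exp (-(g y))) := by
    intro y
    have e1 : (fun t : ℝ => ({p : (Fin m → ℝ) × ℝ | g p.1 ≤ p.2}).indicator
        (fun p => ENNReal.ofReal (Real.exp (-p.2))) (y, t)) =
        (Ici (g y)).indicator (fun t => ENNReal.ofReal (Real.exp (-t))) := by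
      funext t
      by_cases h : g y ≤ t
      · simp [Set.indicator, h]
      · simp [Set.indicator, h]
    rw [e1, lintegral_indicator measurableSet_Ici, ← restrict_Ioi_eq_restrict_Ici,
      ← ofReal_integral_eq_lintegral_ofReal (integrableOn_exp_neg_Ioi (g y))
        (Filter.Eventually.of_forall fun t => (Real.exp_pos _).le),
      integral_exp_neg_Ioi]
  have hR : ∀ t : ℝ, ∫⁻ y : Fin m → ℝ, ({p : (Fin m → ℝ) × ℝ | g p.1 ≤ p.2}).indicator
      (fun p => ENNReal.ofReal (Real.exp (-p.2))) (y, t) =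
      ENNReal.ofReal (Real.exp (-t)) * volume {y | g y ≤ t} := by
    intro t
    have e1 : (fun y : Fin m → ℝ => ({p : (Fin m → ℝ) × ℝ | g p.1 ≤ p.2}).indicator
        (fun p => ENNReal.ofReal (Real.exp (-p.2))) (y, t)) =
        ({y | g y ≤ t}).indicator (fun _ => ENNReal.ofReal (Real.exp (-t))) := by
      funext y
      by_cases h : g y ≤ t
      · simp [Set.indicator, h]
      · simp [Set.indicator, h]
    rw [e1, lintegral_indicator_const (measurableSet_le hg measurable_const)]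
  have hae : (fun t : ℝ => ENNReal.ofReal (Real.exp (-t)) * volume {y | g y ≤ t}) =ᵐ[volume]
      (Ioi (0:ℝ)).indicator
        (fun t => ENNReal.ofReal (Real.exp (-t) * t ^ m) * volume {y | g y ≤ 1}) := by
    have hne : ∀ᵐ t : ℝ, t ≠ 0 := by
      rw [ae_iff]
      simp
    filter_upwards [hne] with t ht
    rcases lt_or_gt_of_ne ht with hneg | hpos
    · have hempty : {y | g y ≤ t} = ∅ := by
        ext y
        simp only [Set.mem_setOf_eq, Set.mem_empty_iff_false, iff_false, not_le]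
        exact lt_of_lt_of_le hneg (h0 y)
      have hni : t ∉ Ioi (0:ℝ) := by simp [hneg.le]
      rw [hempty, Set.indicator_of_notMem hni]
      simp
    · have hi : t ∈ Ioi (0:ℝ) := hpos
      rw [Set.indicator_of_mem hi, ga_volume_sublevel g hhom hpos,
        ENNReal.ofReal_mul (Real.exp_pos _).le, mul_assoc]
  calc ∫⁻ y, ENNReal.ofReal (Real.exp (-(g y)))
      = ∫⁻ y : Fin m → ℝ, ∫⁻ t : ℝ, ({p : (Fin m → ℝ) × ℝ | g p.1 ≤ p.2}).indicator
          (fun p => ENNReal.ofReal (Real.exp (-p.2))) (y, t) := by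
        refine lintegral_congr (fun y => ?_)
        exact (hL y).symm
    _ = ∫⁻ t : ℝ, ∫⁻ y : Fin m → ℝ, ({p : (Fin m → ℝ) × ℝ | g p.1 ≤ p.2}).indicator
          (fun p => ENNReal.ofReal (Real.exp (-p.2))) (y, t) := hswap
    _ = ∫⁻ t : ℝ, ENNReal.ofReal (Real.exp (-t)) * volume {y | g y ≤ t} :=
        lintegral_congr hR
    _ = ∫⁻ t : ℝ, (Ioi (0:ℝ)).indicator
          (fun t => ENNReal.ofReal (Real.exp (-t) * t ^ m) * volume {y | g y ≤ 1}) t :=
        lintegral_congr_ae hae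
    _ = ∫⁻ t in Ioi (0:ℝ), ENNReal.ofReal (Real.exp (-t) * t ^ m) * volume {y | g y ≤ 1} :=
        lintegral_indicator measurableSet_Ioi _
    _ = (∫⁻ t in Ioi (0:ℝ), ENNReal.ofReal (Real.exp (-t) * t ^ m)) * volume {y | g y ≤ 1} :=
        lintegral_mul_const _ (by fun_prop)
    _ = ENNReal.ofReal (m.factorial : ℝ) * volume {y | g y ≤ 1} := by rw [ga_gamma]

/-- Layer cake formula for a nonnegative positively homogeneous function `g` on `ℝ^m` whose unit
sublevel set has finite volume: `∫ exp(-g) = m! |{g ≤ 1}|`, and `exp(-g)` is integrable. -/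
theorem integral_exp_neg_gauge {m : ℕ} (g : (Fin m → ℝ) → ℝ) (hg : Measurable g)
    (h0 : ∀ y, 0 ≤ g y) (hhom : ∀ (t : ℝ) (y : Fin m → ℝ), 0 ≤ t → g (t • y) = t * g y)
    (hfin : volume {y | g y ≤ 1} ≠ ⊤) :
    Integrable (fun y => Real.exp (-(g y))) ∧
      ∫ y, Real.exp (-(g y)) = (m.factorial : ℝ) * vol {y | g y ≤ 1} := by
  have hl := ga_lintegral g hg h0 hhom
  have hnn : 0 ≤ᵐ[volume] fun y : Fin m → ℝ => Real.exp (-(g y)) :=
    Filter.Eventually.of_forall fun y => (Real.exp_pos _).le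
  have hme : Measurable fun y : Fin m → ℝ => Real.exp (-(g y)) := by fun_prop
  refine ⟨⟨hme.aestronglyMeasurable, ?_⟩, ?_⟩
  · rw [hasFiniteIntegral_iff_ofReal hnn, hl]
    exact ENNReal.mul_lt_top ENNReal.ofReal_lt_top (lt_top_iff_ne_top.mpr hfin)
  · rw [integral_eq_lintegral_of_nonneg_ae hnn hme.aestronglyMeasurable, hl, ENNReal.toReal_mul,
      ENNReal.toReal_ofReal (Nat.cast_nonneg _)]
    rfl

end Vale.Agent.Lib.P248
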