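import Mathlib

namespace Vale.Agent.Lib.P248

/-- The bound `3` for the `k`-th power of `1 + 1/k`, cleared of denominators. -/
private lemma num_pow_le (k : ℕ) (hk : 1 ≤ k) : (k + 1) ^ k ≤ 3 * k ^ k := by
  have hk0 : (0:ℝ) < k := by exact_mod_cast hk
  have h1 : ((k:ℝ) + 1) ^ k ≤ 3 * (k:ℝ) ^ k := by
    have h2 : (1 / (k:ℝ) + 1) ^ k ≤ Real.exp 1 := by
      calc (1 / (k:ℝ) + 1) ^ k ≤ (Real.exp (1 / (k:ℝ))) ^ k :=
            pow_le_pow_left₀ (by positivity) (Real.add_one_le_exp _) k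
        _ = Real.exp 1 := by
            rw [← Real.exp_nat_mul]
            congr 1
            field_simp
    have h3 : Real.exp 1 < 3 := lt_trans Real.exp_one_lt_d9 (by norm_num)
    have h4 : ((k:ℝ) + 1) ^ k = (1 / (k:ℝ) + 1) ^ k * (k:ℝ) ^ k := by
      rw [← mul_pow]
      congr 1
      field_simp
      ring
    rw [h4]
    exact mul_le_mul_of_nonneg_right (h2.trans h3.le) (by positivity)
  exact_mod_cast h1

/-- The inequality in natural numbers: `4^(n + 1) * n!` exceeds `(n + 2)^(n + 2)` from `n = 8` on. -/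
private lemma num_nat (n : ℕ) (hn : 8 ≤ n) :
    (n + 2) ^ (n + 2) < 4 ^ (n + 1) * n.factorial := by
  induction n, hn using Nat.le_induction with
  | base => norm_num [Nat.factorial]
  | succ n hn ih =>
    have h1 := num_pow_le (n + 2) (by omega)
    have e1 : (n + 1 + 2) ^ (n + 1 + 2) = (n + 3) * (n + 2 + 1) ^ (n + 2) := by ring
    have e2 : 4 ^ (n + 1 + 1) * (n + 1).factorial
        = 4 * (n + 1) * (4 ^ (n + 1) * n.factorial) := by
      rw [Nat.factorial_succ]; ring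
    rw [e1, e2]
    calc (n + 3) * (n + 2 + 1) ^ (n + 2)
        ≤ (n + 3) * (3 * (n + 2) ^ (n + 2)) := Nat.mul_le_mul_left _ h1
      _ = (3 * (n + 3)) * (n + 2) ^ (n + 2) := by ring
      _ ≤ (4 * (n + 1)) * (n + 2) ^ (n + 2) := Nat.mul_le_mul_right _ (by omega)
      _ < 4 * (n + 1) * (4 ^ (n + 1) * n.factorial) :=
          mul_lt_mul_of_pos_left ih (by omega)

/-- From dimension nine on the bound exceeds the volume product of the simplex. -/
theorem num_gap (n : ℕ) (hn : 8 ≤ n) :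
    ((n:ℝ) + 2) ^ (n+2) / ((n+1).factorial : ℝ) ^ 2 <
      (4:ℝ) ^ (n+1) / (((n:ℝ) + 1) * (n+1).factorial) := by
  have h := num_nat n hn
  have hR : ((n:ℝ) + 2) ^ (n + 2) < (4:ℝ) ^ (n + 1) * (n.factorial : ℝ) := by
    exact_mod_cast h
  have hf : ((n + 1).factorial : ℝ) = ((n:ℝ) + 1) * (n.factorial : ℝ) := by
    rw [Nat.factorial_succ]; push_cast; ring
  have hfpos : (0:ℝ) < (n.factorial : ℝ) := by exact_mod_cast Nat.factorial_pos n
  have hn1 : (0:ℝ) < (n:ℝ) + 1 := by positivity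
  rw [hf, div_lt_div_iff₀ (by positivity) (by positivity)]
  have e : (4:ℝ) ^ (n + 1) * (((n:ℝ) + 1) * (n.factorial : ℝ)) ^ 2
      = (4:ℝ) ^ (n + 1) * (n.factorial : ℝ)
        * (((n:ℝ) + 1) * (((n:ℝ) + 1) * (n.factorial : ℝ))) := by ring
  rw [e]
  exact mul_lt_mul_of_pos_right hR (by positivity)

end Vale.Agent.Lib.P248
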