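import Vale.Agent.Lib.P248.Axis
import Vale.Agent.Lib.P248.FlipAll
import Vale.Agent.Lib.P248.Num

open MeasureTheory Set

namespace Vale.Agent.Lib.P248

/-- **Volume product of convex bodies symmetric in all coordinates but one.** -/
theorem axisReflections_bound {n : ℕ} (K : Set (Fin (n+1) → ℝ)) (hK : IsCompact K)
    (hc : Convex ℝ K)
    (hflip : ∀ i : Fin (n+1), i ≠ 0 → ∀ x ∈ K, Function.update x i (-(x i)) ∈ K)
    (z : Fin (n+1) → ℝ) (hz : z ∈ interior K) :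
    (4:ℝ) ^ (n+1) / (((n:ℝ) + 1) * (n+1).factorial) ≤ vol K * vol (polarAt K z) ∧
      (8 ≤ n → ((n:ℝ) + 2) ^ (n+2) / ((n+1).factorial : ℝ) ^ 2 < vol K * vol (polarAt K z)) := by
  obtain ⟨z', hz0, hz', hle⟩ := polar_vol_axis_le hK hc hflip hz
  have h1 := axis_bound K hK hc hflip z' hz0 hz'
  have hv : 0 ≤ vol K := ENNReal.toReal_nonneg
  have h2 : (4:ℝ) ^ (n+1) / (((n:ℝ) + 1) * (n+1).factorial) ≤ vol K * vol (polarAt K z) :=
    le_trans h1 (mul_le_mul_of_nonneg_left hle hv)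
  exact ⟨h2, fun hn => lt_of_lt_of_le (num_gap n hn) h2⟩

end Vale.Agent.Lib.P248
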