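import Vale.Agent.Lib.P248.Corner

open MeasureTheory Set

namespace Vale.Agent.Lib.P248

/-- Slicing a measurable subset of `ℝ^(n+1)` by the coordinate `i`. -/
theorem volume_eq_lintegral_slice {n : ℕ} (i : Fin (n+1)) {S : Set (Fin (n+1) → ℝ)}
    (hS : MeasurableSet S) :
    volume S = ∫⁻ τ : ℝ, volume {g : Fin n → ℝ | i.insertNth τ g ∈ S} := by
  have he := volume_preserving_piFinSuccAbove (fun _ : Fin (n+1) => ℝ) i
  have h1 : volume ((MeasurableEquiv.piFinSuccAbove (fun _ : Fin (n+1) => ℝ) i).symm ⁻¹' S)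
      = volume S := he.symm.measure_preimage hS.nullMeasurableSet
  have hm : MeasurableSet
      ((MeasurableEquiv.piFinSuccAbove (fun _ : Fin (n+1) => ℝ) i).symm ⁻¹' S) :=
    (MeasurableEquiv.piFinSuccAbove (fun _ : Fin (n+1) => ℝ) i).symm.measurable hS
  rw [← h1, Measure.volume_eq_prod, Measure.prod_apply hm]
  rfl

end Vale.Agent.Lib.P248
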