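import Vale.Agent.Lib.P248.Cone
import Vale.Agent.Lib.P248.Base

open MeasureTheory Set

namespace Vale.Agent.Lib.P248

/-- The induction step of the product inequality for half corners. -/
theorem halfCorner_step {n : ℕ}
    (ih : ∀ C : Set (Fin (n+1) → ℝ), HalfCorner C →
      4 / (((n:ℝ) + 1) * (n+1).factorial) ≤ vol C * vol (dualCorner C))
    (C : Set (Fin (n+2) → ℝ)) (hC : HalfCorner C) :
    4 / (((n:ℝ) + 2) * (n+2).factorial) ≤ vol C * vol (dualCorner C) := by
  have hD : HalfCorner (dualCorner C) := halfCorner_dual hC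
  have hV : 0 < vol C := halfCorner_vol_pos hC
  have hW : 0 < vol (dualCorner C) := halfCorner_vol_pos hD
  have hN : (0:ℝ) < (n:ℝ) + 2 := by positivity
  have hNV : 0 < ((n:ℝ) + 2) * vol C := mul_pos hN hV
  have hvol0 : ∀ K : Set (Fin (n+1) → ℝ), 0 ≤ vol K := fun K => ENNReal.toReal_nonneg
  -- the point of the dual given by the facet volumes
  obtain ⟨w, hw⟩ : ∃ w : Fin (n+2) → ℝ,
      w = fun i => if i = 0 then 0 else vol (facet C i) / (((n:ℝ) + 2) * vol C) := ⟨_, rfl⟩
  have hwD : w ∈ dualCorner C := by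
    refine ⟨fun i hi => ?_, fun x hx => ?_⟩
    · rw [hw]
      simp only [if_neg hi]
      exact div_nonneg (hvol0 _) hNV.le
    · have hterm : ∀ i : Fin (n+2), x i * w i =
          (if i = 0 then 0 else x i * vol (facet C i)) / (((n:ℝ) + 2) * vol C) := by
        intro i
        rw [hw]
        by_cases hi : i = 0
        · simp only [if_pos hi, mul_zero, zero_div]
        · simp only [if_neg hi]
          rw [mul_div_assoc]
      rw [Finset.sum_congr rfl (fun i _ => hterm i), ← Finset.sum_div, div_le_one hNV]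
      exact cone_ineq hC hx
  have hcone := cone_ineq hD hwD
  -- lower bound for each term, by the induction hypothesis on the facets
  obtain ⟨c, hc⟩ : ∃ c : ℝ, c = 4 / (((n:ℝ) + 1) * (n+1).factorial) := ⟨_, rfl⟩
  have hterm : ∀ i : Fin (n+2), (if i = 0 then (0:ℝ) else c / (((n:ℝ) + 2) * vol C)) ≤
      (if i = 0 then 0 else w i * vol (facet (dualCorner C) i)) := by
    intro i
    by_cases hi : i = 0
    · simp only [if_pos hi]
      exact le_refl _
    · simp only [if_neg hi]
      have h1 := ih (facet C i) (halfCorner_facet hC i hi)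
      rw [← facet_dualCorner hC i hi, ← hc] at h1
      rw [hw]
      simp only [if_neg hi]
      rw [div_mul_eq_mul_div]
      exact div_le_div_of_nonneg_right h1 hNV.le
  have hsum : ∑ i : Fin (n+2), (if i = 0 then (0:ℝ) else c / (((n:ℝ) + 2) * vol C)) =
      ((n:ℝ) + 1) * (c / (((n:ℝ) + 2) * vol C)) := by
    rw [Fin.sum_univ_succ]
    simp [Fin.succ_ne_zero]
  have hmain : ((n:ℝ) + 1) * (c / (((n:ℝ) + 2) * vol C)) ≤
      ((n:ℝ) + 2) * vol (dualCorner C) := by
    rw [← hsum]
    exact le_trans (Finset.sum_le_sum (fun i _ => hterm i)) hcone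
  -- algebra
  have hfac : (n+2).factorial = (n+2) * (n+1).factorial := Nat.factorial_succ (n+1)
  have hfact : ((n+2).factorial : ℝ) = ((n:ℝ) + 2) * ((n+1).factorial : ℝ) := by
    rw [hfac]
    push_cast
    ring
  have hf1 : (0:ℝ) < ((n+1).factorial : ℝ) := Nat.cast_pos.mpr (Nat.factorial_pos _)
  have hn1 : (0:ℝ) < (n:ℝ) + 1 := by positivity
  rw [hfact]
  rw [hc] at hmain
  have e1 : ((n:ℝ) + 1) * (4 / (((n:ℝ) + 1) * ((n+1).factorial : ℝ)) / (((n:ℝ) + 2) * vol C)) =
      4 / (((n+1).factorial : ℝ) * (((n:ℝ) + 2) * vol C)) := by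
    field_simp
  rw [e1, div_le_iff₀ (mul_pos hf1 hNV)] at hmain
  rw [div_le_iff₀ (mul_pos hN (mul_pos hN hf1))]
  have e2 : vol C * vol (dualCorner C) * (((n:ℝ) + 2) * (((n:ℝ) + 2) * ((n+1).factorial : ℝ))) =
      ((n:ℝ) + 2) * vol (dualCorner C) * (((n+1).factorial : ℝ) * (((n:ℝ) + 2) * vol C)) := by
    ring
  rw [e2]
  exact hmain

/-- **Product inequality for half corners.** -/
theorem halfCorner_product {n : ℕ} (C : Set (Fin (n+1) → ℝ)) (hC : HalfCorner C) :
    4 / (((n:ℝ) + 1) * (n+1).factorial) ≤ vol C * vol (dualCorner C) := by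
  induction n with
  | zero =>
    have h := halfCorner_base C hC
    norm_num
    exact h
  | succ k ih =>
    have h := halfCorner_step ih C hC
    have e : ((k + 1 : ℕ) : ℝ) + 1 = (k:ℝ) + 2 := by push_cast; ring
    rw [e]
    exact h

end Vale.Agent.Lib.P248
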