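import Vale.Agent.Lib.P248.Gauge
import Vale.Agent.Lib.P248.Polar

open MeasureTheory Set

namespace Vale.Agent.Lib.P248

/-- The support function of `K`. -/
noncomputable def supp {m : ℕ} (K : Set (Fin m → ℝ)) (y : Fin m → ℝ) : ℝ :=
  sSup ((fun x : Fin m → ℝ => ∑ i, y i * x i) '' K)

private lemma supp_cont {m : ℕ} (y : Fin m → ℝ) :
    Continuous (fun x : Fin m → ℝ => ∑ i, y i * x i) := by
  fun_prop

private lemma supp_bdd {m : ℕ} {K : Set (Fin m → ℝ)} (hK : IsCompact K) (y : Fin m → ℝ) :
    BddAbove ((fun x : Fin m → ℝ => ∑ i, y i * x i) '' K) :=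
  (hK.image (supp_cont y)).bddAbove

private lemma le_supp {m : ℕ} {K : Set (Fin m → ℝ)} (hK : IsCompact K) (y : Fin m → ℝ)
    {x : Fin m → ℝ} (hx : x ∈ K) : ∑ i, y i * x i ≤ supp K y :=
  le_csSup (supp_bdd hK y) (mem_image_of_mem _ hx)

private lemma supp_le_iff {m : ℕ} {K : Set (Fin m → ℝ)} (hK : IsCompact K) (hne : K.Nonempty)
    (y : Fin m → ℝ) (c : ℝ) : supp K y ≤ c ↔ ∀ x ∈ K, ∑ i, y i * x i ≤ c := by
  unfold supp
  rw [csSup_le_iff (supp_bdd hK y) (hne.image _)]
  constructor
  · intro h x hx
    exact h _ (mem_image_of_mem _ hx)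
  · rintro h _ ⟨x, hx, rfl⟩
    exact h x hx

open scoped Pointwise in
private lemma supp_smul {m : ℕ} (K : Set (Fin m → ℝ)) (t : ℝ) (ht : 0 ≤ t)
    (y : Fin m → ℝ) : supp K (t • y) = t * supp K y := by
  unfold supp
  have h : (fun x : Fin m → ℝ => ∑ i, (t • y) i * x i) '' K
      = t • ((fun x : Fin m → ℝ => ∑ i, y i * x i) '' K) := by
    rw [← image_smul, image_image]
    apply image_congr
    intro x _
    simp [Finset.mul_sum, mul_assoc]
  rw [h, Real.sSup_smul_of_nonneg ht, smul_eq_mul]

private lemma supp_meas {m : ℕ} {K : Set (Fin m → ℝ)} (hK : IsCompact K) :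
    Measurable (supp K) := by
  have h : supp K = fun y => ⨆ x : K, ∑ i, y i * (x : Fin m → ℝ) i := by
    funext y
    unfold supp
    rw [sSup_image']
  rw [h]
  apply LowerSemicontinuous.measurable
  apply lowerSemicontinuous_ciSup
  · intro y
    have hb := supp_bdd hK y
    rw [image_eq_range] at hb
    exact hb
  · intro x
    exact Continuous.lowerSemicontinuous (by fun_prop)

/-- The volume of the polar with respect to an interior point, as an exponential integral of the
support function. -/
theorem polar_vol_eq_integral {m : ℕ} {K : Set (Fin m → ℝ)} (hK : IsCompact K)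
    {z : Fin m → ℝ} (hz : z ∈ interior K) :
    Integrable (fun y : Fin m → ℝ => Real.exp (-(supp K y - ∑ i, y i * z i))) ∧
      ∫ y : Fin m → ℝ, Real.exp (-(supp K y - ∑ i, y i * z i)) =
        (m.factorial : ℝ) * vol (polarAt K z) := by
  have hzK : z ∈ K := interior_subset hz
  have hne : K.Nonempty := ⟨z, hzK⟩
  have hset : {y : Fin m → ℝ | supp K y - ∑ i, y i * z i ≤ 1} = polarAt K z := by
    ext y
    simp only [Set.mem_ofPred_eq, polarAt]
    rw [sub_le_iff_le_add, supp_le_iff hK hne]
    constructor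
    · intro h x hx
      have h1 := h x hx
      have h2 : ∑ i, y i * (x i - z i) = ∑ i, y i * x i - ∑ i, y i * z i := by
        rw [← Finset.sum_sub_distrib]
        apply Finset.sum_congr rfl
        intro i _
        ring
      rw [h2]
      linarith
    · intro h x hx
      have h1 := h x hx
      have h2 : ∑ i, y i * (x i - z i) = ∑ i, y i * x i - ∑ i, y i * z i := by
        rw [← Finset.sum_sub_distrib]
        apply Finset.sum_congr rfl
        intro i _
        ring
      rw [h2] at h1
      linarith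
  have hg : Measurable (fun y : Fin m → ℝ => supp K y - ∑ i, y i * z i) := by
    apply Measurable.sub (supp_meas hK)
    exact Continuous.measurable (by fun_prop)
  have h0 : ∀ y : Fin m → ℝ, 0 ≤ supp K y - ∑ i, y i * z i := by
    intro y
    have := le_supp hK y hzK
    linarith
  have hhom : ∀ (t : ℝ) (y : Fin m → ℝ), 0 ≤ t →
      supp K (t • y) - ∑ i, (t • y) i * z i = t * (supp K y - ∑ i, y i * z i) := by
    intro t y ht
    rw [supp_smul K t ht y, mul_sub, Finset.mul_sum]
    congr 1
    apply Finset.sum_congr rfl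
    intro i _
    simp [mul_assoc]
  have hfin : volume {y : Fin m → ℝ | supp K y - ∑ i, y i * z i ≤ 1} ≠ ⊤ := by
    rw [hset]
    exact volume_polarAt_ne_top hz
  have key := integral_exp_neg_gauge (fun y : Fin m → ℝ => supp K y - ∑ i, y i * z i)
    hg h0 hhom hfin
  rw [hset] at key
  exact key

end Vale.Agent.Lib.P248
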